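import Mathlib

/-!
# Basic objects for packets of torus orbits

`SL n` is `SL_n(ℝ)`, `Gamma n` the image of `SL_n(ℤ)`, and `Space n` the space of right cosets
`Gamma n \ SL n`, with the quotient topology and its Borel sigma-algebra.
-/

open Matrix MeasureTheory

namespace Vale.Agent.P007

/-- The group `SL_n(ℝ)`. -/
abbrev SLR (n : ℕ) : Type := Matrix.SpecialLinearGroup (Fin n) ℝ

/-- The image of `SL_n(ℤ)` in `SL_n(ℝ)`. -/
def Gamma (n : ℕ) : Subgroup (SLR n) :=
  (Matrix.SpecialLinearGroup.map (n := Fin n) (Int.castRingHom ℝ)).range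

/-- The space `X_n = SL_n(ℤ) \ SL_n(ℝ)` of right cosets. -/
abbrev Space (n : ℕ) : Type := Quotient (MulAction.orbitRel (Gamma n) (SLR n))

/-- The class `SL_n(ℤ) g` of `g`. -/
def proj {n : ℕ} (g : SLR n) : Space n := Quotient.mk _ g

/-- The right action of `SL_n(ℝ)` on `X_n`. -/
def rightMul {n : ℕ} (h : SLR n) : Space n → Space n :=
  Quotient.map (fun g => g * h) (by
    intro a b hab
    obtain ⟨γ, rfl⟩ := hab
    exact ⟨γ, (mul_assoc _ _ _).symm⟩)

instance instMeasurableSpaceSpace (n : ℕ) : MeasurableSpace (Space n) := borel (Space n)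

instance instBorelSpaceSpace (n : ℕ) : BorelSpace (Space n) := ⟨rfl⟩

/-- A probability measure on `X_n` invariant under the right action of `SL_n(ℝ)`. -/
def IsInvariantProbability {n : ℕ} (m : Measure (Space n)) : Prop :=
  IsProbabilityMeasure m ∧ ∀ h : SLR n, Measure.map (rightMul h) m = m

/-- The lattice spanned over `ℤ` by the rows of `g`. -/
def rowLattice {n : ℕ} (g : SLR n) : Set (Fin n → ℝ) :=
  Set.range fun z : Fin n → ℤ => (fun i => (z i : ℝ)) ᵥ* (g : Matrix (Fin n) (Fin n) ℝ)

/-- The union of the packet of torus orbits of `(O, σ)`: the classes of the covolume-one lattices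
`c · σ(I) w a`, where `I` runs through the invertible fractional `O`-ideals, `w` through the sign
matrices, `a` through the positive diagonal matrices of determinant one, and `c > 0` is the
normalising scalar. -/
def packet {n : ℕ} {K : Type*} [Field K] (O : Subring K) (σ : Fin n ≃ (K →+* ℝ)) :
    Set (Space n) :=
  {p | ∃ g : SLR n, proj g = p ∧
    ∃ (I : Submodule O K) (c : ℝ) (w a : Fin n → ℝ),
      IsUnit I ∧ 0 < c ∧ (∀ j, w j = 1 ∨ w j = -1) ∧ (∀ j, 0 < a j) ∧ (∏ j, a j = 1) ∧
      rowLattice g = (fun x : K => fun j => c * w j * a j * σ j x) '' (I : Set K)}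

/-- A measure carried by the packet of `(O, σ)`. -/
def IsCarriedBy {n : ℕ} (μ : Measure (Space n)) (P : Set (Space n)) : Prop :=
  IsProbabilityMeasure μ ∧ μ Pᶜ = 0

end Vale.Agent.P007
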