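import Vale.Agent.P007.Defs

/-!
# The subfield obstruction
-/

open Matrix MeasureTheory Polynomial Filter Topology

namespace Vale.Agent.P007

variable {n : ℕ}

lemma isClosed_gamma (n : ℕ) : IsClosed ((Gamma n : Subgroup (SLR n)) : Set (SLR n)) := by
  have h := Int.isClosedEmbedding_coe_real.specialLinearGroup_map (n := Fin n)
    (f := Int.castRingHom ℝ)
  simpa [Gamma] using h.isClosed_range

instance instT2SpaceSpace (n : ℕ) : T2Space (Space n) :=
  haveI : IsClosed ((Gamma n : Subgroup (SLR n)) : Set (SLR n)) := isClosed_gamma n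
  inferInstance

instance instLocallyCompactSLR (n : ℕ) : LocallyCompactSpace (SLR n) :=
  haveI : LocallyCompactSpace (Matrix (Fin n) (Fin n) ℝ) :=
    inferInstanceAs (LocallyCompactSpace (Fin n → Fin n → ℝ))
  (Matrix.SpecialLinearGroup.isClosedEmbedding_val (n := Fin n) (R := ℝ)).locallyCompactSpace

instance instSecondCountableSLR (n : ℕ) : SecondCountableTopology (SLR n) :=
  haveI : SecondCountableTopology (Matrix (Fin n) (Fin n) ℝ) :=
    inferInstanceAs (SecondCountableTopology (Fin n → Fin n → ℝ))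
  (Matrix.SpecialLinearGroup.isClosedEmbedding_val
    (n := Fin n) (R := ℝ)).isEmbedding.secondCountableTopology

lemma isOpenQuotientMap_proj : IsOpenQuotientMap (proj (n := n)) :=
  MulAction.isOpenQuotientMap_quotientMk

instance instLocallyCompactSpaceSpace (n : ℕ) : LocallyCompactSpace (Space n) :=
  (isOpenQuotientMap_proj (n := n)).locallyCompactSpace

instance instSecondCountableSpace (n : ℕ) : SecondCountableTopology (Space n) :=
  (isOpenQuotientMap_proj (n := n)).isQuotientMap.secondCountableTopology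
    (isOpenQuotientMap_proj (n := n)).isOpenMap

lemma continuous_rightMul (h : SLR n) : Continuous (rightMul h) := by
  rw [← (isOpenQuotientMap_proj (n := n)).continuous_comp_iff]
  exact (isOpenQuotientMap_proj (n := n)).continuous.comp (continuous_id.mul continuous_const)

lemma rightMul_proj (h g : SLR n) : rightMul h (proj g) = proj (g * h) := rfl

/-- An invariant probability measure charges every nonempty open set. -/
lemma measure_open_pos {m : Measure (Space n)} (hm : IsInvariantProbability m)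
    {U : Set (Space n)} (hU : IsOpen U) (hne : U.Nonempty) : 0 < m U := by
  obtain ⟨hprob, hinv⟩ := hm
  by_contra hzero
  have h0 : m U = 0 := le_antisymm (not_lt.1 hzero) zero_le
  have : m Set.univ = 0 := by
    refine measure_null_of_locally_null _ fun p _ => ?_
    obtain ⟨g, rfl⟩ := (isOpenQuotientMap_proj (n := n)).surjective p
    obtain ⟨q, hq⟩ := hne
    obtain ⟨g₀, rfl⟩ := (isOpenQuotientMap_proj (n := n)).surjective q
    refine ⟨rightMul (g⁻¹ * g₀) ⁻¹' U, ?_, ?_⟩
    · refine mem_nhdsWithin_of_mem_nhds ((hU.preimage (continuous_rightMul _)).mem_nhds ?_)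
      simpa [rightMul_proj] using hq
    · rw [← Measure.map_apply (continuous_rightMul _).measurable hU.measurableSet, hinv]
      exact h0
  simp at this

/-- The nonscalar vectors of roots of `P`. -/
def rootVectors (n : ℕ) (P : ℤ[X]) : Set (Fin n → ℝ) :=
  {v | (∀ j, aeval (v j) P = 0) ∧ ∃ i j, v i ≠ v j}

lemma rootVectors_finite (n : ℕ) {P : ℤ[X]} (hP : P.Monic) : (rootVectors n P).Finite := by
  have h : ((P.map (Int.castRingHom ℝ)).rootSet ℝ).Finite := rootSet_finite _ _
  refine (Set.Finite.pi (fun _ : Fin n => h)).subset fun v hv => ?_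
  simp only [Set.mem_pi, Set.mem_univ, true_implies]
  intro j
  rw [mem_rootSet_of_ne (hP.map _).ne_zero]
  simpa [aeval_def, eval₂_eq_eval_map, Polynomial.map_map] using hv.1 j

/-- Matrices `g` conjugating the diagonal matrix of `v` to an integral matrix. -/
def integralConj (v : Fin n → ℝ) : Set (SLR n) :=
  {g | ∀ i j, ((g : Matrix (Fin n) (Fin n) ℝ) * diagonal v * (g⁻¹ : SLR n).1) i j ∈
    Set.range (fun k : ℤ => (k : ℝ))}

lemma isClosed_integralConj (v : Fin n → ℝ) : IsClosed (integralConj v) := by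
  simp only [integralConj, Set.ofPred_forall]
  refine isClosed_iInter fun i => isClosed_iInter fun j => ?_
  refine Int.isClosedEmbedding_coe_real.isClosed_range.preimage ?_
  have hc : Continuous fun g : SLR n =>
      (g : Matrix (Fin n) (Fin n) ℝ) * diagonal v * (g⁻¹ : SLR n).1 :=
    ((continuous_subtype_val).matrix_mul continuous_const).matrix_mul
      ((Matrix.SpecialLinearGroup.isClosedEmbedding_val (n := Fin n) (R := ℝ)).continuous.comp
        (continuous_inv (G := SLR n)))
  exact (hc.matrix_elem i j)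

lemma integralConj_gamma {v : Fin n → ℝ} {g γ : SLR n} (hγ : γ ∈ Gamma n)
    (hg : g ∈ integralConj v) : γ * g ∈ integralConj v := by
  obtain ⟨γ₀, rfl⟩ := hγ
  have hg' : ∀ i j, ∃ k : ℤ, (k : ℝ) =
      ((g : Matrix (Fin n) (Fin n) ℝ) * diagonal v * (g⁻¹ : SLR n).1) i j := hg
  choose M hM using hg'
  intro i j
  refine ⟨((γ₀ : Matrix (Fin n) (Fin n) ℤ) * Matrix.of M *
    ((γ₀⁻¹ : Matrix.SpecialLinearGroup (Fin n) ℤ) : Matrix (Fin n) (Fin n) ℤ)) i j, ?_⟩
  have hA : ((g : Matrix (Fin n) (Fin n) ℝ) * diagonal v * (g⁻¹ : SLR n).1) =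
      (Matrix.of M).map (Int.castRingHom ℝ) := by
    ext a b; simp [hM]
  set u := Matrix.SpecialLinearGroup.map (Int.castRingHom ℝ) γ₀ with hu
  have hrw : ((u * g : SLR n) : Matrix (Fin n) (Fin n) ℝ) * diagonal v * ((u * g)⁻¹ : SLR n).1 =
      ((γ₀ : Matrix (Fin n) (Fin n) ℤ) * Matrix.of M *
        ((γ₀⁻¹ : Matrix.SpecialLinearGroup (Fin n) ℤ) : Matrix (Fin n) (Fin n) ℤ)).map
          (Int.castRingHom ℝ) := by
    have hi : ((u * g)⁻¹ : SLR n) = g⁻¹ * Matrix.SpecialLinearGroup.map (Int.castRingHom ℝ) γ₀⁻¹ :=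
      by rw [hu, map_inv]; exact _root_.mul_inv_rev _ _
    rw [hi, Matrix.SpecialLinearGroup.coe_mul, Matrix.SpecialLinearGroup.coe_mul, Matrix.map_mul,
      Matrix.map_mul, ← hA]
    simp only [hu, Matrix.mul_assoc]
    rfl
  rw [hrw]
  rfl

/-- A lattice in the packet of an order containing a root of `P` which is not a rational integer
is fixed, up to integral conjugation, by a nonscalar diagonal matrix of roots of `P`. -/
lemma packet_subset [NeZero n] {K : Type*} [Field K] {O : Subring K}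
    {σ : Fin n ≃ (K →+* ℝ)} {P : ℤ[X]} {θ : K} (hθO : θ ∈ O) (hθ : aeval θ P = 0)
    (hθZ : ∀ k : ℤ, (k : K) ≠ θ) :
    packet O σ ⊆ proj '' ⋃ v ∈ rootVectors n P, integralConj v := by
  rintro _ ⟨g, rfl, I, c, w, a, -, -, -, -, -, hlat⟩
  set v : Fin n → ℝ := fun j => σ j θ with hv
  have hroot : ∀ j, aeval (v j) P = 0 := by
    intro j
    have h := hom_eval₂ P (algebraMap ℤ K) (σ j) θ
    rw [← aeval_def, hθ, map_zero] at h
    rw [aeval_def, hv]
    rw [show (σ j).comp (algebraMap ℤ K) = algebraMap ℤ ℝ from RingHom.ext_int _ _] at h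
    exact h.symm
  have hrows : ∀ i, ∃ z : Fin n → ℤ,
      (fun k => (z k : ℝ)) ᵥ* (g : Matrix (Fin n) (Fin n) ℝ) =
        fun j => (g : Matrix (Fin n) (Fin n) ℝ) i j * v j := by
    intro i
    have hi : (fun j => (g : Matrix (Fin n) (Fin n) ℝ) i j) ∈ rowLattice g := by
      refine ⟨Pi.single i 1, ?_⟩
      have : (fun k => ((Pi.single i 1 : Fin n → ℤ) k : ℝ)) = Pi.single i 1 := by
        ext k; by_cases h : k = i
        · subst h; simp
        · simp [h]
      dsimp only
      rw [this, Matrix.single_one_vecMul]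
      rfl
    rw [hlat] at hi
    obtain ⟨x, hx, hxi⟩ := hi
    have hmem : θ * x ∈ I := I.smul_mem (⟨θ, hθO⟩ : O) hx
    have : (fun j => (g : Matrix (Fin n) (Fin n) ℝ) i j * v j) ∈ rowLattice g := by
      rw [hlat]
      refine ⟨θ * x, hmem, ?_⟩
      funext j
      have := congrFun hxi j
      dsimp only at this
      rw [← this]
      simp only [hv, map_mul]
      ring
    exact this
  choose M hM using hrows
  have hconj : (g : Matrix (Fin n) (Fin n) ℝ) * diagonal v * (g⁻¹ : SLR n).1 =
      (Matrix.of M).map (Int.cast : ℤ → ℝ) := by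
    have h1 : (g : Matrix (Fin n) (Fin n) ℝ) * diagonal v =
        (Matrix.of M).map (Int.cast : ℤ → ℝ) * (g : Matrix (Fin n) (Fin n) ℝ) := by
      ext i j
      rw [Matrix.mul_diagonal, ← congrFun (hM i) j]
      rfl
    rw [h1, Matrix.mul_assoc, ← Matrix.SpecialLinearGroup.coe_mul, mul_inv_cancel,
      Matrix.SpecialLinearGroup.coe_one, Matrix.mul_one]
  refine ⟨g, Set.mem_biUnion (x := v) ⟨hroot, ?_⟩ ?_, rfl⟩
  · by_contra hcon
    push Not at hcon
    have hd : diagonal v = v 0 • (1 : Matrix (Fin n) (Fin n) ℝ) := by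
      ext i j; by_cases h : i = j
      · subst h; simp [hcon i 0]
      · simp [h]
    rw [hd, Matrix.mul_smul, Matrix.mul_one, Matrix.smul_mul,
      ← Matrix.SpecialLinearGroup.coe_mul, mul_inv_cancel,
      Matrix.SpecialLinearGroup.coe_one] at hconj
    have h00 := congrFun (congrFun hconj 0) 0
    simp at h00
    exact hθZ (M 0 0) ((σ 0).injective (by simpa [hv] using h00.symm))
  · intro i j
    exact ⟨M i j, by rw [hconj]; rfl⟩

/-- There is a lattice outside all the sets `integralConj v`. -/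
lemma exists_outside {V : Set (Fin n → ℝ)} (hV : V.Finite)
    (hns : ∀ v ∈ V, ∃ i j, v i ≠ v j) : ∃ g : SLR n, ∀ v ∈ V, g ∉ integralConj v := by
  rcases n with _ | n
  · exact ⟨1, fun v hv => by obtain ⟨i, -⟩ := hns v hv; exact i.elim0⟩
  set bad : Set ℝ := ⋃ v ∈ V, ⋃ j : Fin (n + 1), ⋃ _ : v j ≠ v 0,
    (fun t : ℝ => t * (v j - v 0)) ⁻¹' Set.range (fun k : ℤ => (k : ℝ)) with hbad
  have hc : bad.Countable := by
    refine hV.countable.biUnion fun v _ => Set.countable_iUnion fun j =>
      Set.countable_iUnion fun hne => ?_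
    refine (Set.countable_range _).preimage ?_
    intro s t hst
    exact mul_right_cancel₀ (sub_ne_zero.2 hne) hst
  obtain ⟨t, ht⟩ : ∃ t, t ∉ bad := (Set.ne_univ_iff_exists_notMem bad).1 fun h =>
    Cardinal.not_countable_real (h ▸ hc)
  set N : Matrix (Fin (n + 1)) (Fin (n + 1)) ℝ :=
    Matrix.of fun i j => if i = 0 ∧ j ≠ 0 then t else 0 with hN
  have hNtri : Matrix.IsUpperTriangular (1 + N) := by
    intro i j hij
    have hi : i ≠ 0 := by rintro rfl; exact absurd hij (Fin.not_lt_zero j)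
    have hne : i ≠ j := ne_of_gt hij
    simp [hN, hi, hne]
  have hdet : (1 + N).det = 1 := by
    rw [Matrix.det_of_isUpperTriangular hNtri]
    refine Finset.prod_eq_one fun i _ => ?_
    simp [hN]
  have hNN : N * N = 0 := by
    ext i j
    rw [Matrix.mul_apply]
    refine Finset.sum_eq_zero fun k _ => ?_
    by_cases hk : k = 0
    · subst hk; simp [hN]
    · simp [hN, hk]
  set g : SLR (n + 1) := ⟨1 + N, hdet⟩ with hg
  have hginv : (g⁻¹ : SLR (n + 1)).1 = 1 - N := by
    rw [Matrix.SpecialLinearGroup.coe_inv]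
    have h1 : (1 + N).adjugate * (1 + N) = 1 := by rw [Matrix.adjugate_mul, hdet, one_smul]
    have h2 : (1 + N) * (1 - N) = 1 := by
      rw [mul_sub, Matrix.mul_one, Matrix.add_mul, Matrix.one_mul, hNN, add_zero,
        add_sub_cancel_right]
    exact left_inv_eq_right_inv h1 h2
  refine ⟨g, fun v hv hmem => ?_⟩
  obtain ⟨j, hj⟩ : ∃ j, v j ≠ v 0 := by
    by_contra h
    push Not at h
    obtain ⟨i, j, hij⟩ := hns v hv
    exact hij ((h i).trans (h j).symm)
  obtain ⟨k, hk⟩ := hmem 0 j
  have hj0 : j ≠ 0 := fun h => hj (by rw [h])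
  have hval : ((g : Matrix (Fin (n + 1)) (Fin (n + 1)) ℝ) * diagonal v *
      (g⁻¹ : SLR (n + 1)).1) 0 j = t * (v j - v 0) := by
    rw [hginv, Matrix.mul_sub, Matrix.mul_one, Matrix.sub_apply,
      Matrix.mul_apply (M := (g : Matrix (Fin (n + 1)) (Fin (n + 1)) ℝ) * diagonal v) (N := N),
      Finset.sum_eq_single 0]
    · simp only [Matrix.mul_diagonal]
      simp [hg, hN, hj0, Ne.symm hj0]
      ring
    · intro b _ hb; simp [hN, hb]
    · simp
  apply ht
  simp only [hbad, Set.mem_iUnion]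
  exact ⟨v, hv, j, hj, k, hk.trans hval⟩

/-- The test function. -/
lemma exists_test_function [NeZero n] {P : ℤ[X]} (hP : P.Monic) :
    ∃ f : Space n → ℝ, Continuous f ∧ HasCompactSupport f ∧ (∀ p, 0 ≤ f p) ∧
      (∀ (K : Type) [Field K] (O : Subring K) (σ : Fin n ≃ (K →+* ℝ)) (θ : K), θ ∈ O →
        aeval θ P = 0 → (∀ k : ℤ, (k : K) ≠ θ) → ∀ p ∈ packet O σ, f p = 0) ∧
      (∀ m : Measure (Space n), IsInvariantProbability m → 0 < ∫ p, f p ∂m) := by
  classical
  set V := rootVectors n P with hV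
  have hfin : V.Finite := rootVectors_finite n hP
  set Z : Set (SLR n) := ⋃ v ∈ V, integralConj v with hZ
  have hZc : IsClosed Z := hfin.isClosed_biUnion fun v _ => isClosed_integralConj v
  have hpre : proj ⁻¹' (proj '' Z) = Z := by
    refine Set.Subset.antisymm ?_ (Set.subset_preimage_image _ _)
    rintro g ⟨h, hh, hgh⟩
    obtain ⟨γ, rfl⟩ := Quotient.exact hgh.symm
    simp only [hZ, Set.mem_iUnion] at hh ⊢
    obtain ⟨v, hv, hv'⟩ := hh
    exact ⟨v, hv, integralConj_gamma γ.2 hv'⟩
  have hYc : IsClosed (proj '' Z) := by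
    rw [← (isOpenQuotientMap_proj (n := n)).isQuotientMap.isClosed_preimage, hpre]
    exact hZc
  obtain ⟨g₀, hg₀⟩ := exists_outside hfin (fun v hv => hv.2)
  have hout : proj g₀ ∉ proj '' Z := by
    intro h
    have h' : g₀ ∈ proj ⁻¹' (proj '' Z) := h
    rw [hpre] at h'
    simp only [hZ, Set.mem_iUnion] at h'
    obtain ⟨v, hv, hv'⟩ := h'
    exact hg₀ v hv hv'
  obtain ⟨f, hf1, hf0, hfs, hf01⟩ := exists_continuous_one_zero_of_isCompact
    (isCompact_singleton (x := proj g₀)) hYc (Set.disjoint_singleton_left.2 hout)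
  refine ⟨f, f.continuous, hfs, fun p => (hf01 p).1, ?_, ?_⟩
  · intro K _ O σ θ hθO hθ hθZ p hp
    exact hf0 (packet_subset hθO hθ hθZ hp)
  · intro m hm
    haveI := hm.1
    have hint : Integrable f m := f.continuous.integrable_of_hasCompactSupport hfs
    rw [integral_pos_iff_support_of_nonneg (fun p => (hf01 p).1) hint]
    refine measure_open_pos hm (isOpen_ne_fun f.continuous continuous_const) ⟨proj g₀, ?_⟩
    have := hf1 (Set.mem_singleton (proj g₀))
    simp [this]

/-- No weak convergence along a sequence of orders infinitely often containing a root of a fixed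
monic polynomial which is not a rational integer. -/
lemma not_equidistributed [NeZero n] {P : ℤ[X]} (hP : P.Monic) :
    ∃ f : Space n → ℝ, Continuous f ∧ HasCompactSupport f ∧
      ∀ (K : ℕ → Type) [∀ i, Field (K i)] (O : ∀ i, Subring (K i))
        (σ : ∀ i, Fin n ≃ (K i →+* ℝ)),
        (∃ᶠ i in atTop, ∃ θ ∈ O i, aeval θ P = 0 ∧ ∀ k : ℤ, (k : K i) ≠ θ) →
        ∀ μ : ℕ → Measure (Space n), (∀ i, IsCarriedBy (μ i) (packet (O i) (σ i))) →
        ∀ m : Measure (Space n), IsInvariantProbability m →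
          ¬ Tendsto (fun i => ∫ p, f p ∂μ i) atTop (𝓝 (∫ p, f p ∂m)) := by
  obtain ⟨f, hfc, hfs, -, hf0, hfpos⟩ := exists_test_function (n := n) hP
  refine ⟨f, hfc, hfs, fun K _ O σ hfreq μ hμ m hm hlim => ?_⟩
  have hzero : ∃ᶠ i in atTop, ∫ p, f p ∂μ i = 0 := hfreq.mono fun i ⟨θ, hθO, hθ, hθZ⟩ => by
    refine integral_eq_zero_of_ae ?_
    rw [EventuallyEq, ae_iff]
    exact measure_mono_null (fun p hp hpP => hp (hf0 _ _ _ θ hθO hθ hθZ p hpP)) (hμ i).2
  have : ∫ p, f p ∂m = 0 := by
    by_contra hne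
    exact hzero ((hlim.eventually (isOpen_ne.mem_nhds hne)).mono fun i hi => hi)
  exact (hfpos m hm).ne' this

end Vale.Agent.P007
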