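import Vale.Agent.P007.Polys
import Vale.Agent.P007.Obstruction

/-!
# Totally real fields of composite degree with a fixed subfield and growing discriminant
-/

open Polynomial Matrix NumberField Module

namespace Vale.Agent.P007

/-- If a prime does not divide the discriminant, the integers modulo it have no nilpotents. -/
lemma dvd_of_sq_dvd {K : Type*} [Field K] [NumberField K] {q : ℕ} (hq : q.Prime)
    (hd : ¬ (q : ℤ) ∣ discr K) {a y : 𝓞 K} (hay : a ^ 2 = (q : 𝓞 K) * y) :
    (q : 𝓞 K) ∣ a := by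
  classical
  haveI := Fact.mk hq
  set b := RingOfIntegers.basis K
  set T := Algebra.traceMatrix ℤ b with hT
  have hcoef : ∀ j, (((T *ᵥ (b.repr a)) j : ℤ) : ZMod q) = 0 := by
    intro j
    have h1 : (T *ᵥ (b.repr a)) j = Algebra.trace ℤ (𝓞 K) (b j * a) := by
      conv_rhs => rw [← b.sum_repr a, Finset.mul_sum, map_sum]
      simp only [Matrix.mulVec, dotProduct, hT, Algebra.traceMatrix_apply,
        Algebra.traceForm_apply, mul_smul_comm, map_smul, smul_eq_mul]
      exact Finset.sum_congr rfl fun i _ => mul_comm _ _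
    rw [h1, Algebra.trace_eq_matrix_trace b]
    set M := Algebra.leftMulMatrix b (b j * a) with hM
    have hsq : M * M = (q : ℤ) • Algebra.leftMulMatrix b (b j ^ 2 * y) := by
      rw [hM, ← map_mul, ← map_zsmul]
      congr 1
      rw [zsmul_eq_mul, Int.cast_natCast]
      linear_combination (b j) ^ 2 * hay
    have hnil : IsNilpotent (M.map (Int.castRingHom (ZMod q))) := by
      refine ⟨2, ?_⟩
      rw [pow_two, ← Matrix.map_mul, hsq]
      ext i k
      rw [Matrix.map_apply, Matrix.smul_apply, smul_eq_mul, map_mul, eq_intCast, Int.cast_natCast,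
        ZMod.natCast_self, zero_mul]
      rfl
    have h0 := (Matrix.isNilpotent_trace_of_isNilpotent hnil).eq_zero
    simpa [Matrix.trace, Matrix.diag] using h0
  have hrepr : ∀ i, (q : ℤ) ∣ b.repr a i := by
    intro i
    have h2 : T.adjugate *ᵥ (T *ᵥ (b.repr a)) = T.det • (b.repr a : _ → ℤ) := by
      rw [Matrix.mulVec_mulVec, Matrix.adjugate_mul, Matrix.smul_mulVec, Matrix.one_mulVec]
    have h3 : (q : ℤ) ∣ T.det * b.repr a i := by
      have h4 := congrFun h2 i
      simp only [Pi.smul_apply, smul_eq_mul] at h4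
      rw [← h4, Matrix.mulVec, dotProduct]
      exact Finset.dvd_sum fun j _ =>
        dvd_mul_of_dvd_right ((ZMod.intCast_zmod_eq_zero_iff_dvd _ q).1 (hcoef j)) _
    rcases (Nat.prime_iff_prime_int.1 hq).dvd_or_dvd h3 with h | h
    · exact absurd h hd
    · exact h
  choose u hu using hrepr
  refine ⟨∑ i, u i • b i, ?_⟩
  conv_lhs => rw [← b.sum_repr a]
  rw [Finset.mul_sum]
  refine Finset.sum_congr rfl fun i _ => ?_
  rw [hu i, zsmul_eq_mul, zsmul_eq_mul]
  push_cast
  ring

/-- A ramification criterion. -/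
lemma prime_dvd_discr {K : Type*} [Field K] [NumberField K] {g : ℤ[X]} {q : ℕ} (hq : q.Prime)
    {u : ℤ} (h0 : g.coeff 0 = q * u) (hu : ¬ (q : ℤ) ∣ u) (h1 : (q : ℤ) ∣ g.coeff 1)
    {x : 𝓞 K} (hx : aeval x g = 0)
    (hnorm : (Algebra.norm ℤ x).natAbs = (g.coeff 0).natAbs) :
    (q : ℤ) ∣ discr K := by
  by_contra hd
  obtain ⟨t, ht⟩ := h1
  set r : 𝓞 K := aeval x (divX (divX g)) with hr
  have hexp : (q : 𝓞 K) * ((u : 𝓞 K) + (t : 𝓞 K) * x) + x ^ 2 * r = 0 := by
    have h := hx
    rw [← X_mul_divX_add g, ← X_mul_divX_add (divX g)] at h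
    simp only [coeff_divX, zero_add, h0, ht, map_add, map_mul, aeval_X, aeval_C] at h
    simp only [algebraMap_int_eq, eq_intCast, Int.cast_mul, Int.cast_natCast] at h
    rw [hr]; linear_combination h
  obtain ⟨s, hs⟩ := dvd_of_sq_dvd hq hd (a := x * r) (y := -(r * ((u : 𝓞 K) + (t : 𝓞 K) * x)))
    (by linear_combination r * hexp)
  have hq0 : (q : 𝓞 K) ≠ 0 := Nat.cast_ne_zero.2 hq.ne_zero
  have hu' : (u : 𝓞 K) + (t : 𝓞 K) * x + x * s = 0 := by
    refine mul_left_cancel₀ hq0 ?_
    linear_combination hexp - x * hs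
  have hxu : x ∣ (u : 𝓞 K) := ⟨-((t : 𝓞 K) + s), by linear_combination hu'⟩
  have h2 : (Algebra.norm ℤ x) ∣ Algebra.norm ℤ (u : 𝓞 K) := map_dvd _ hxu
  have h3 : (q : ℤ) ∣ Algebra.norm ℤ x := by
    rw [Int.natCast_dvd, hnorm, ← Int.natCast_dvd, h0]
    exact dvd_mul_right _ _
  have h4 : Algebra.norm ℤ (u : 𝓞 K) = u ^ Module.finrank ℤ (𝓞 K) := by
    rw [← eq_intCast (algebraMap ℤ (𝓞 K)) u]
    exact Algebra.norm_algebraMap u
  exact hu ((Nat.prime_iff_prime_int.1 hq).dvd_of_dvd_pow (h4 ▸ h3.trans h2))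

/-- The ring of integers as a subring of the field. -/
noncomputable abbrev maximalOrder (K : Type*) [Field K] : Subring K :=
  (algebraMap (𝓞 K) K).range

/-- Embeddings are given by an injective family of real roots. -/
noncomputable def ordering {g : ℚ[X]} [Fact (Irreducible g)] {n : ℕ} (hn : g.natDegree ≤ n)
    (y : Fin n → ℝ) (hy : Function.Injective y) (hroot : ∀ k, aeval (y k) g = 0) :
    Fin n ≃ (AdjoinRoot g →+* ℝ) :=
  Equiv.ofBijective (fun k => AdjoinRoot.lift (algebraMap ℚ ℝ) (y k)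
    (by rw [← aeval_def]; exact hroot k)) ⟨fun a b h => by
    have := congrArg (fun φ : AdjoinRoot g →+* ℝ => φ (AdjoinRoot.root g)) h
    simp only [AdjoinRoot.lift_root] at this
    exact hy this, fun φ => by
    classical
    have hne : g ≠ 0 := (Fact.out : Irreducible g).ne_zero
    have hφ : φ.comp (AdjoinRoot.of g) = algebraMap ℚ ℝ := RingHom.ext_rat _ _
    have hz : aeval (φ (AdjoinRoot.root g)) g = 0 := by
      rw [aeval_def, ← hφ, ← hom_eval₂, AdjoinRoot.eval₂_root, map_zero]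
    have hsub : Finset.univ.image y ⊆ (g.aroots ℝ).toFinset := by
      intro z hz
      obtain ⟨k, -, rfl⟩ := Finset.mem_image.1 hz
      rw [Multiset.mem_toFinset, mem_aroots]
      exact ⟨hne, hroot k⟩
    have heq : Finset.univ.image y = (g.aroots ℝ).toFinset := by
      refine Finset.eq_of_subset_of_card_le hsub ?_
      rw [Finset.card_image_of_injective _ hy, Finset.card_fin]
      refine (Multiset.toFinset_card_le _).trans ((card_roots' _).trans ?_)
      rwa [natDegree_map]
    have hmem : φ (AdjoinRoot.root g) ∈ (g.aroots ℝ).toFinset := by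
      rw [Multiset.mem_toFinset, mem_aroots]; exact ⟨hne, hz⟩
    rw [← heq] at hmem
    obtain ⟨k, -, hk⟩ := Finset.mem_image.1 hmem
    refine ⟨k, RingHom.ext fun z => ?_⟩
    induction z using AdjoinRoot.induction_on with
    | _ p =>
      dsimp only
      rw [AdjoinRoot.lift_mk, hk, ← AdjoinRoot.aeval_eq, aeval_def, hom_eval₂]
      exact congrArg (fun f => eval₂ f _ p) (RingHom.ext_rat _ _)⟩

/-- The packet of the maximal order is nonempty. -/
lemma packet_nonempty {K : Type*} [Field K] [NumberField K] {n : ℕ} [NeZero n]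
    (hn : finrank ℚ K = n) (σ : Fin n ≃ (K →+* ℝ)) :
    (packet (maximalOrder K) σ).Nonempty := by
  classical
  set b : Basis (Fin n) ℤ (𝓞 K) := (RingOfIntegers.basis K).reindex
    (Fintype.equivFinOfCardEq (by
      rw [← Module.finrank_eq_card_basis (RingOfIntegers.basis K), RingOfIntegers.rank, hn]))
  set M : Matrix (Fin n) (Fin n) ℝ := Matrix.of fun i j => σ j (b i : K) with hM
  have hdet : M.det ≠ 0 := by
    intro h
    obtain ⟨v, hv0, hv⟩ := (Matrix.exists_mulVec_eq_zero_iff (M := M)).2 h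
    let L : (𝓞 K) →ₗ[ℤ] ℝ :=
      ∑ j, v j • ((σ j).comp (algebraMap (𝓞 K) K)).toAddMonoidHom.toIntLinearMap
    have hL : L = 0 := by
      refine b.ext fun i => ?_
      have h5 := congrFun hv i
      simp only [Matrix.mulVec, dotProduct, hM, Matrix.of_apply, Pi.zero_apply] at h5
      simp only [L, LinearMap.coe_sum, Finset.sum_apply, LinearMap.smul_apply,
        AddMonoidHom.coe_toIntLinearMap, RingHom.toAddMonoidHom_eq_coe, RingHom.coe_coe,
        AddMonoidHom.coe_coe, RingHom.coe_comp, Function.comp_apply, smul_eq_mul,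
        LinearMap.zero_apply]
      rw [← h5]
      exact Finset.sum_congr rfl fun j _ => mul_comm _ _
    have hK : ∀ z : K, ∑ j, v j * σ j z = 0 := by
      let LQ : K →ₗ[ℚ] ℝ := ∑ j, v j • (σ j).toRatAlgHom.toLinearMap
      have hLQ : LQ = 0 := by
        refine (integralBasis K).ext fun i => ?_
        have := LinearMap.congr_fun hL (RingOfIntegers.basis K i)
        simpa [LQ, L, integralBasis_apply] using this
      intro z
      have := LinearMap.congr_fun hLQ z
      simpa [LQ] using this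
    have hli : LinearIndependent ℝ fun j : Fin n => ((σ j : K →* ℝ) : K → ℝ) :=
      (linearIndependent_monoidHom K ℝ).comp (fun j => ((σ j : K →+* ℝ) : K →* ℝ))
        (fun a c h => σ.injective (RingHom.ext fun z => DFunLike.congr_fun h z))
    refine hv0 (funext fun j => Fintype.linearIndependent_iff.1 hli v ?_ j)
    funext z
    simpa [Finset.sum_apply] using hK z
  -- normalise
  set w : Fin n → ℝ := fun j => if j = 0 ∧ M.det < 0 then -1 else 1 with hw
  have hwprod : M.det * ∏ j, w j = |M.det| := by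
    have h : ∏ j, w j = if M.det < 0 then -1 else 1 := by
      rw [Finset.prod_eq_single 0 (fun j _ hj => by simp [hw, hj]) (by simp)]
      simp [hw]
    rw [h]
    split_ifs with hneg
    · rw [abs_of_neg hneg]; ring
    · rw [abs_of_nonneg (not_lt.1 hneg), mul_one]
  set c : ℝ := |M.det| ^ (-((n : ℝ))⁻¹) with hc
  have hcpos : 0 < c := Real.rpow_pos_of_pos (abs_pos.2 hdet) _
  have hcn : c ^ n * |M.det| = 1 := by
    rw [hc, ← Real.rpow_natCast, ← Real.rpow_mul (abs_nonneg _), neg_mul,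
      inv_mul_cancel₀ (Nat.cast_ne_zero.2 (NeZero.ne n)), Real.rpow_neg_one,
      inv_mul_cancel₀ (abs_ne_zero.2 hdet)]
  let g : SLR n := ⟨M * Matrix.diagonal (fun j => c * w j), by
    rw [Matrix.det_mul, Matrix.det_diagonal, Finset.prod_mul_distrib, Finset.prod_const,
      Finset.card_fin]
    calc M.det * (c ^ n * ∏ j, w j) = c ^ n * (M.det * ∏ j, w j) := by ring
      _ = 1 := by rw [hwprod, hcn]⟩
  refine ⟨proj g, g, rfl, 1, c, w, fun _ => 1, isUnit_one, hcpos, fun j => ?_, fun _ => one_pos,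
    by simp, ?_⟩
  · simp only [hw]; split_ifs <;> simp
  · have key : ∀ z : Fin n → ℤ, (fun i => (z i : ℝ)) ᵥ* (g : Matrix (Fin n) (Fin n) ℝ) =
        fun j => c * w j * 1 * σ j ((∑ i, z i • b i : 𝓞 K) : K) := by
      intro z
      funext j
      simp only [g, Matrix.vecMul, dotProduct, Matrix.mul_diagonal, hM, Matrix.of_apply]
      rw [show ((∑ i, z i • b i : 𝓞 K) : K) = algebraMap (𝓞 K) K (∑ i, z i • b i) from rfl,
        map_sum, map_sum, Finset.mul_sum]
      refine Finset.sum_congr rfl fun i _ => ?_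
      rw [map_zsmul, map_zsmul, zsmul_eq_mul]
      ring
    ext p
    simp only [rowLattice, Set.mem_range, Set.mem_image, SetLike.mem_coe, Submodule.mem_one]
    constructor
    · rintro ⟨z, rfl⟩
      exact ⟨_, ⟨⟨_, ⟨∑ i, z i • b i, rfl⟩⟩, rfl⟩, (key z).symm⟩
    · rintro ⟨_, ⟨⟨_, ⟨a, rfl⟩⟩, rfl⟩, rfl⟩
      refine ⟨b.repr a, ?_⟩
      rw [key, b.sum_repr]
      rfl

/-- The family of fields. -/
lemma exists_field {d e : ℕ} (hd : 2 ≤ d) (he : 2 ≤ e) (B : ℕ) :
    ∃ (K : Type) (_ : Field K) (_ : NumberField K) (_ : Fin (d * e) ≃ (K →+* ℝ)),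
      finrank ℚ K = d * e ∧ (B : ℤ) ≤ |discr K| ∧
      ∃ θ ∈ maximalOrder K, aeval θ (base d) = 0 ∧ ∀ k : ℤ, (k : K) ≠ θ := by
  obtain ⟨q, hq, hBq, hq2, c, hqc, hqc2⟩ := exists_prime_exact (d := d) (by omega) B
  have hde : 0 < d * e := Nat.mul_pos (by omega) (by omega)
  have hq2' : IsCoprime (4 : ℤ) ((q : ℤ) ^ 2) := by
    rw [Int.isCoprime_iff_nat_coprime]
    simp only [Int.natAbs_pow, Int.natAbs_natCast]
    refine Nat.Coprime.pow_right _ ?_
    exact (Nat.coprime_primes Nat.prime_two hq).2 (by omega) |> fun h =>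
      show Nat.Coprime (2 ^ 2) q from h.pow_left _
  obtain ⟨s, t, hst⟩ := hq2'
  set a : ℤ := c * (s * 4) with ha
  have ha4 : (4 : ℤ) ∣ a := ⟨c * s, by rw [ha]; ring⟩
  have haq : (q : ℤ) ^ 2 ∣ a - c := ⟨-(c * t), by rw [ha]; linear_combination c * hst⟩
  set N : ℤ := |a| + 4 * (d + 1) + 1 with hN
  have hN0 : 0 < N := by positivity
  set A : ℤ := 4 * (q : ℤ) ^ 2 * N with hA
  have hq0 : (0 : ℤ) < q := by exact_mod_cast hq.pos
  have hA0 : 0 < A := by positivity
  set h : ℤ[X] := ladder A e + C a with hh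
  set g : ℤ[X] := (base d).comp h with hg
  have hhm : h.Monic := by
    refine (ladder_monic A e).add_of_left ?_
    rw [Polynomial.degree_eq_natDegree (ladder_monic A e).ne_zero, ladder_natDegree]
    exact lt_of_le_of_lt degree_C_le (by exact_mod_cast (by omega : 0 < e))
  have hhdeg : h.natDegree = e := by rw [hh, natDegree_add_C, ladder_natDegree]
  have hgm : g.Monic := (base_monic (by omega)).comp hhm (by rw [hhdeg]; omega)
  have hgdeg : g.natDegree = d * e := by rw [hg, natDegree_comp, base_natDegree, hhdeg]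
  -- at the prime two
  have hh0 : h.eval 0 = (ladder A e).eval 0 + a := by simp [hh]
  have hA40 : (A : ZMod 2) = 0 := by
    rw [ZMod.intCast_zmod_eq_zero_iff_dvd]
    exact ⟨2 * (q : ℤ) ^ 2 * N, by rw [hA]; push_cast; ring⟩
  have hmap2 : g.map (Int.castRingHom (ZMod 2)) = X ^ (d * e) := by
    have ha2 : (Int.castRingHom (ZMod 2)) a = 0 :=
      (ZMod.intCast_zmod_eq_zero_iff_dvd _ _).2 ((by norm_num : (2 : ℤ) ∣ 4).trans ha4)
    rw [hg, Polynomial.map_comp, base_map_two, hh, Polynomial.map_add, Polynomial.map_C, ha2,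
      map_zero, add_zero, ladder_map_eq _ _ hA40, pow_comp, X_comp, ← pow_mul, mul_comm e d]
  have hlad0 : A ∣ (ladder A e).eval 0 := by
    simp only [ladder, eval_prod]
    refine dvd_trans ?_ (Finset.dvd_prod_of_mem _ (Finset.mem_range.2 (by omega : 0 < e)))
    simp
  have hg4 : (4 : ℤ) ∣ g.eval 0 - 2 := by
    have h1 : (4 : ℤ) ∣ h.eval 0 := by
      rw [hh0]; exact dvd_add ((show (4 : ℤ) ∣ A from ⟨(q : ℤ) ^ 2 * N, by rw [hA]; ring⟩).trans hlad0) ha4
    have h2 : (4 : ℤ) ∣ (base d).eval (h.eval 0) - (base d).eval 0 :=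
      h1.trans (by simpa using sub_dvd_eval_sub (h.eval 0) 0 (base d))
    have := dvd_add h2 (four_dvd_base_eval_zero_sub (by omega : 0 < d))
    rw [hg, eval_comp]
    simpa using this
  have hgirr : Irreducible g := irreducible_of_two hgm hgdeg hde hmap2 hg4
  -- at the prime q
  have hq2A : (q : ℤ) ^ 2 ∣ A := ⟨4 * N, by rw [hA]; ring⟩
  have hgc : (q : ℤ) ^ 2 ∣ g.eval 0 - (base d).eval c := by
    rw [hg, eval_comp]
    refine dvd_trans ?_ (sub_dvd_eval_sub (h.eval 0) c (base d))
    rw [hh0, add_sub_assoc]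
    exact dvd_add (hq2A.trans hlad0) haq
  obtain ⟨u, hu⟩ : (q : ℤ) ∣ g.coeff 0 := by
    rw [coeff_zero_eq_eval_zero]
    simpa using dvd_add ((dvd_pow_self _ two_ne_zero).trans hgc) hqc
  have hu' : ¬ (q : ℤ) ∣ u := by
    intro hd'
    refine hqc2 ?_
    have h5 : (q : ℤ) ^ 2 ∣ g.eval 0 := by
      rw [← coeff_zero_eq_eval_zero, hu, sq]; exact mul_dvd_mul_left _ hd'
    simpa using dvd_sub h5 hgc
  have hg1 : (q : ℤ) ∣ g.coeff 1 := by
    have h1 : g.coeff 1 = (derivative g).eval 0 := by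
      rw [← coeff_zero_eq_eval_zero, coeff_derivative]; simp
    rw [h1, hg, derivative_comp, eval_mul]
    refine Dvd.dvd.mul_right ?_ _
    rw [← coeff_zero_eq_eval_zero, coeff_derivative]
    have h2 : (q : ℤ) ∣ h.coeff 1 := by
      rw [← ZMod.intCast_zmod_eq_zero_iff_dvd]
      have hAq : (A : ZMod q) = 0 :=
        (ZMod.intCast_zmod_eq_zero_iff_dvd _ _).2 ((dvd_pow_self _ two_ne_zero).trans hq2A)
      have h3 := congrArg (fun p => Polynomial.coeff p 1) (ladder_map_eq A e hAq)
      simp only [coeff_map, coeff_X_pow, if_neg (show (1 : ℕ) ≠ e by omega)] at h3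
      rw [hh, coeff_add, coeff_C, if_neg one_ne_zero, add_zero]
      simpa using h3
    simpa using h2
  -- roots
  obtain ⟨ρ, hρi, hρ⟩ := exists_ladder_solutions 4 (by norm_num) d (-2) (by
    have h1 : (4 : ℝ) ≤ ((4 : ℤ) / 2 : ℝ) ^ d := by
      calc (4 : ℝ) = 2 ^ 2 := by norm_num
        _ ≤ 2 ^ d := pow_le_pow_right₀ (by norm_num) hd
        _ = _ := by norm_num
    calc |(-2 : ℝ)| < 4 := by norm_num
      _ ≤ _ := h1)
  have hlad : ∀ k, ∃ y : Fin e → ℝ, Function.Injective y ∧
      ∀ l, aeval (y l) (ladder A e) = ρ k - a ∧ |y l| < (A : ℝ) * (e + 1) := fun k => by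
    refine exists_ladder_solutions A hA0 e _ ?_
    have h1 : |ρ k - a| < (N : ℝ) := by
      have h2 := (hρ k).2
      rw [hN]; push_cast at h2 ⊢
      have := abs_sub (ρ k) (a : ℝ)
      linarith
    have h3 : (N : ℝ) ≤ (A : ℝ) / 2 := by
      rw [le_div_iff₀ (by norm_num), hA]; push_cast
      have : (1 : ℝ) ≤ (q : ℝ) ^ 2 := one_le_pow₀ (by exact_mod_cast hq.one_lt.le)
      have : (0 : ℝ) < (N : ℝ) := Int.cast_pos.2 hN0
      nlinarith
    have h4 : (1 : ℝ) ≤ (A : ℝ) / 2 := by
      have : (1 : ℝ) ≤ (N : ℝ) := by exact_mod_cast hN0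
      linarith
    exact h1.trans_le (h3.trans (le_self_pow₀ h4 (by omega)))
  choose y hyi hy using hlad
  let Y : Fin (d * e) → ℝ := fun i =>
    y (finProdFinEquiv.symm i).1 (finProdFinEquiv.symm i).2
  have hhy : ∀ k l, aeval (y k l) h = ρ k := fun k l => by
    rw [hh, map_add, (hy k l).1, aeval_C]; simp
  have hYi : Function.Injective Y := by
    intro i j hij
    apply finProdFinEquiv.symm.injective
    have h1 : (finProdFinEquiv.symm i).1 = (finProdFinEquiv.symm j).1 := by
      apply hρi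
      rw [← hhy, ← hhy]
      exact congrArg (fun z => aeval z h) hij
    refine Prod.ext h1 ?_
    simp only [Y, h1] at hij
    exact hyi _ hij
  set gQ : ℚ[X] := g.map (Int.castRingHom ℚ) with hgQ
  have hgQirr : Irreducible gQ :=
    (Polynomial.IsPrimitive.Int.irreducible_iff_irreducible_map_cast hgm.isPrimitive).1 hgirr
  have hgQdeg : gQ.natDegree = d * e := by
    rw [hgQ, natDegree_map_eq_of_injective Int.cast_injective, hgdeg]
  have hYroot : ∀ i, aeval (Y i) gQ = 0 := fun i => by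
    rw [hgQ, ← algebraMap_int_eq, aeval_map_algebraMap, hg, aeval_comp, hhy, base, map_add,
      (hρ _).1, aeval_C]
    simp
  haveI : Fact (Irreducible gQ) := ⟨hgQirr⟩
  let pb := AdjoinRoot.powerBasis hgQirr.ne_zero
  haveI : FiniteDimensional ℚ (AdjoinRoot gQ) := pb.finite
  haveI : NumberField (AdjoinRoot gQ) := { to_charZero := inferInstance }
  have hrank : finrank ℚ (AdjoinRoot gQ) = d * e := by
    rw [pb.finrank, AdjoinRoot.powerBasis_dim, hgQdeg]
  set r : AdjoinRoot gQ := AdjoinRoot.root gQ with hr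
  have hrg : aeval r g = 0 := by
    rw [← aeval_map_algebraMap ℚ r g, algebraMap_int_eq, ← hgQ, hr, aeval_def]
    rw [show algebraMap ℚ (AdjoinRoot gQ) = AdjoinRoot.of gQ from RingHom.ext_rat _ _]
    exact AdjoinRoot.eval₂_root gQ
  have hint : IsIntegral ℤ r := ⟨g, hgm, by rwa [← aeval_def]⟩
  let x : 𝓞 (AdjoinRoot gQ) := ⟨r, hint⟩
  have hxg : aeval x g = 0 := by
    refine RingOfIntegers.coe_injective ?_
    rw [map_zero, ← aeval_algebraMap_apply]
    exact hrg
  have hnorm : (Algebra.norm ℤ x).natAbs = (g.coeff 0).natAbs := by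
    have h1 : Algebra.norm ℚ r = (-1) ^ (d * e) * (g.coeff 0 : ℚ) := by
      have h2 := Algebra.PowerBasis.norm_gen_eq_coeff_zero_minpoly pb
      rw [AdjoinRoot.powerBasis_dim, AdjoinRoot.powerBasis_gen,
        AdjoinRoot.minpoly_root hgQirr.ne_zero, hgQdeg] at h2
      rw [hr]
      refine Eq.trans ?_ (Eq.trans h2 ?_)
      · congr 2
      · rw [hgQ, (hgm.map _).leadingCoeff]
        simp
    have h3 : (Algebra.norm ℤ x : ℚ) = ((-1) ^ (d * e) * g.coeff 0 : ℤ) := by
      rw [Algebra.coe_norm_int]; push_cast; exact h1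
    rw [Int.cast_inj.1 h3, Int.natAbs_mul, Int.natAbs_pow]
    simp
  refine ⟨AdjoinRoot gQ, inferInstance, inferInstance,
    ordering hgQdeg.le Y hYi hYroot, hrank, ?_, ?_⟩
  · have h := prime_dvd_discr hq hu hu' hg1 hxg hnorm
    have h2 := Nat.le_of_dvd (Int.natAbs_pos.2 (discr_ne_zero _)) (Int.natCast_dvd.1 h)
    rw [Int.abs_eq_natAbs]
    exact_mod_cast (show B ≤ (discr (AdjoinRoot gQ)).natAbs by omega)
  · have hθ0 : aeval (aeval r h) (base d) = 0 := by rw [← aeval_comp, ← hg]; exact hrg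
    refine ⟨aeval r h, ⟨aeval x h, (aeval_algebraMap_apply _ x h).symm⟩, hθ0, fun k hk => ?_⟩
    rw [← hk] at hθ0
    have h1 : (base d).eval k = 0 := by
      rw [← eq_intCast (algebraMap ℤ (AdjoinRoot gQ)) k, aeval_algebraMap_apply] at hθ0
      have := (algebraMap ℤ (AdjoinRoot gQ)).injective_int (hθ0.trans (map_zero _).symm)
      simpa [coe_aeval_eq_eval] using this
    have hdeg1 := degree_eq_one_of_irreducible_of_root (base_irreducible (by omega : 0 < d))
      (show IsRoot (base d) k from h1)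
    have h2 := natDegree_eq_of_degree_eq_some (n := 1) (by exact_mod_cast hdeg1)
    rw [base_natDegree] at h2
    omega

end Vale.Agent.P007
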