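import Mathlib

/-!
# Totally real polynomials of composite degree with a prescribed ramified prime
-/

open Polynomial Finset

namespace Vale.Agent.P007

/-- `∏_{j<e} (X - A (j+1))` over `ℤ`. -/
noncomputable def ladder (A : ℤ) (e : ℕ) : ℤ[X] :=
  ∏ j ∈ Finset.range e, (X - C (A * ((j : ℤ) + 1)))

lemma ladder_monic (A : ℤ) (e : ℕ) : (ladder A e).Monic :=
  monic_prod_of_monic _ _ fun _ _ => monic_X_sub_C _

lemma ladder_natDegree (A : ℤ) (e : ℕ) : (ladder A e).natDegree = e := by
  unfold ladder
  rw [natDegree_prod_of_monic _ _ fun _ _ => monic_X_sub_C _]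
  simp only [natDegree_X_sub_C, Finset.sum_const, Finset.card_range, smul_eq_mul, mul_one]

lemma ladder_map_eq (A : ℤ) (e : ℕ) {R : Type*} [CommRing R] (h : (A : R) = 0) :
    (ladder A e).map (Int.castRingHom R) = X ^ e := by
  unfold ladder
  have h' : (Int.castRingHom R) A = 0 := h
  rw [Polynomial.map_prod, Finset.prod_congr rfl (g := fun _ => (X : R[X])) fun j _ => by
    rw [Polynomial.map_sub, Polynomial.map_X, Polynomial.map_C, map_mul, h', zero_mul, map_zero,
      sub_zero]]
  rw [Finset.prod_const, Finset.card_range]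

lemma aeval_ladder (A : ℤ) (e : ℕ) (y : ℝ) :
    aeval y (ladder A e) = ∏ j ∈ Finset.range e, (y - (A : ℝ) * ((j : ℝ) + 1)) := by
  simp [ladder, map_prod]

/-- A ladder takes every moderate value `e` times. -/
lemma exists_ladder_solutions (A : ℤ) (hA : 0 < A) (e : ℕ) (r : ℝ)
    (hr : |r| < ((A : ℝ) / 2) ^ e) :
    ∃ y : Fin e → ℝ, Function.Injective y ∧
      ∀ k, aeval (y k) (ladder A e) = r ∧ |y k| < (A : ℝ) * (e + 1) := by
  have hA' : (0 : ℝ) < (A : ℝ) / 2 := by
    have : (0 : ℝ) < (A : ℝ) := Int.cast_pos.2 hA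
    linarith
  set φ : ℝ → ℝ := fun y => ∏ j ∈ Finset.range e, (y - (A : ℝ) * ((j : ℝ) + 1)) with hφ
  set p : ℕ → ℝ := fun k => (A : ℝ) * (k : ℝ) + (A : ℝ) / 2 with hp
  have hfac : ∀ k j : ℕ, (A : ℝ) / 2 ≤ |p k - (A : ℝ) * ((j : ℝ) + 1)| := by
    intro k j
    rcases lt_or_ge j k with h | h
    · have h' : (j : ℝ) + 1 ≤ k := by exact_mod_cast h
      refine le_trans ?_ (le_abs_self _)
      simp only [hp]; nlinarith
    · have h' : (k : ℝ) ≤ j := by exact_mod_cast h
      refine le_trans ?_ (neg_le_abs _)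
      simp only [hp]; nlinarith
  have hbig : ∀ k, |r| < |φ (p k)| := by
    intro k
    refine lt_of_lt_of_le hr ?_
    rw [hφ, Finset.abs_prod]
    calc ((A : ℝ) / 2) ^ e = ∏ _j ∈ Finset.range e, (A : ℝ) / 2 := by
          rw [Finset.prod_const, Finset.card_range]
      _ ≤ _ := Finset.prod_le_prod (fun _ _ => hA'.le) (fun j _ => hfac k j)
  have hsign : ∀ k, k < e → φ (p k) * φ (p (k + 1)) < 0 := by
    intro k hk
    have hk' : k ∈ Finset.range e := Finset.mem_range.2 hk
    simp only [hφ]
    rw [← Finset.prod_mul_distrib, ← Finset.mul_prod_erase _ _ hk']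
    refine mul_neg_of_neg_of_pos ?_ (Finset.prod_pos fun j hj => ?_)
    · simp only [hp]; push_cast; nlinarith
    · have hjk : j ≠ k := (Finset.mem_erase.1 hj).1
      rcases lt_or_gt_of_ne hjk with h | h
      · have h' : (j : ℝ) + 1 ≤ k := by exact_mod_cast h
        apply mul_pos <;> (simp only [hp]; push_cast; nlinarith)
      · have h' : (k : ℝ) + 1 ≤ j := by exact_mod_cast h
        apply mul_pos_of_neg_of_neg <;> (simp only [hp]; push_cast; nlinarith)
  have hex : ∀ k : Fin e, ∃ y ∈ Set.Ioo (p k) (p (k + 1)), φ y = r := by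
    intro k
    have hle : p k ≤ p (k + 1) := by simp only [hp]; push_cast; nlinarith
    have hc : ContinuousOn φ (Set.Icc (p k) (p (k + 1))) := by
      apply Continuous.continuousOn
      fun_prop
    have h1 := hbig k
    have h2 := hbig (k + 1)
    rcases lt_or_ge (φ (p k)) 0 with hneg | hpos
    · have hpos' : 0 < φ (p (k + 1)) := by nlinarith [hsign k k.2]
      rw [abs_of_neg hneg] at h1
      rw [abs_of_pos hpos'] at h2
      exact intermediate_value_Ioo hle hc ⟨by linarith [neg_abs_le r], by linarith [le_abs_self r]⟩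
    · have hneg' : φ (p (k + 1)) < 0 := by nlinarith [hsign k k.2]
      rw [abs_of_nonneg hpos] at h1
      rw [abs_of_neg hneg'] at h2
      exact intermediate_value_Ioo' hle hc ⟨by linarith [neg_abs_le r], by linarith [le_abs_self r]⟩
  choose y hy hyr using hex
  refine ⟨y, ?_, fun k => ⟨by rw [aeval_ladder]; exact hyr k, ?_⟩⟩
  · refine StrictMono.injective fun a b hab => ?_
    have hab' : ((a : ℕ) : ℝ) + 1 ≤ (b : ℕ) := by exact_mod_cast hab
    calc y a < p (a + 1) := (hy a).2
      _ ≤ p b := by simp only [hp]; push_cast; nlinarith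
      _ < y b := (hy b).1
  · have h1 := (hy k).1
    have h2 := (hy k).2
    have hk : ((k : ℕ) : ℝ) + 1 ≤ e := by exact_mod_cast k.2
    simp only [hp] at h1 h2
    push_cast at h2
    rw [abs_lt]; constructor <;> nlinarith

/-- The inner polynomial `ladder 4 d + 2`. -/
noncomputable def base (d : ℕ) : ℤ[X] := ladder 4 d + C 2

lemma base_monic {d : ℕ} (hd : 0 < d) : (base d).Monic := by
  refine (ladder_monic 4 d).add_of_left ?_
  rw [Polynomial.degree_eq_natDegree (ladder_monic 4 d).ne_zero, ladder_natDegree]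
  exact lt_of_le_of_lt degree_C_le (by exact_mod_cast hd)

lemma base_natDegree {d : ℕ} : (base d).natDegree = d := by
  rw [base, natDegree_add_C, ladder_natDegree]

lemma four_dvd_base_eval_zero_sub {d : ℕ} (hd : 0 < d) : (4 : ℤ) ∣ (base d).eval 0 - 2 := by
  simp only [base, ladder, eval_add, eval_prod, eval_sub, eval_X, eval_C, add_sub_cancel_right]
  exact (Dvd.intro _ (by ring : (4 : ℤ) * (-((0 : ℕ) : ℤ) - 1) =
    0 - 4 * (((0 : ℕ) : ℤ) + 1))).trans
      (Finset.dvd_prod_of_mem (fun i : ℕ => (0 : ℤ) - 4 * ((i : ℤ) + 1)) (Finset.mem_range.2 hd))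

lemma base_map_two {d : ℕ} : (base d).map (Int.castRingHom (ZMod 2)) = X ^ d := by
  rw [base, Polynomial.map_add, ladder_map_eq _ _ (by decide), Polynomial.map_C]
  simp [show (2 : ZMod 2) = 0 by decide]

/-- Eisenstein at `2`. -/
lemma irreducible_of_two {g : ℤ[X]} {n : ℕ} (hg : g.Monic) (hn : g.natDegree = n) (hn0 : 0 < n)
    (hmap : g.map (Int.castRingHom (ZMod 2)) = X ^ n) (h4 : (4 : ℤ) ∣ g.eval 0 - 2) :
    Irreducible g := by
  have hprime : (Ideal.span ({2} : Set ℤ)).IsPrime := by
    rw [Ideal.span_singleton_prime (by norm_num)]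
    exact Int.prime_two
  refine IsEisensteinAt.irreducible (𝓟 := Ideal.span ({2} : Set ℤ)) ?_ hprime hg.isPrimitive
    (by omega)
  refine Monic.isEisensteinAt_of_mem_of_notMem hg hprime.ne_top (fun {i} hi => ?_) ?_
  · rw [Ideal.mem_span_singleton]
    have := congrArg (fun p => Polynomial.coeff p i) hmap
    simp only [coeff_map, coeff_X_pow] at this
    rw [if_neg (by omega)] at this
    exact (ZMod.intCast_zmod_eq_zero_iff_dvd _ 2).1 (by simpa using this)
  · rw [Ideal.span_singleton_pow, Ideal.mem_span_singleton, coeff_zero_eq_eval_zero]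
    intro h
    have h2 : (4 : ℤ) ∣ 2 := by
      have := dvd_sub (show (4 : ℤ) ∣ g.eval 0 by simpa using h) h4
      simpa using this
    norm_num at h2

lemma base_irreducible {d : ℕ} (hd : 0 < d) : Irreducible (base d) :=
  irreducible_of_two (base_monic hd) base_natDegree hd base_map_two
    (four_dvd_base_eval_zero_sub hd)

/-- For every bound, a larger prime divides some value of `base d` exactly once. -/
lemma exists_prime_exact {d : ℕ} (hd : 0 < d) (B : ℕ) :
    ∃ q : ℕ, q.Prime ∧ B < q ∧ 2 < q ∧ ∃ c : ℤ, (q : ℤ) ∣ (base d).eval c ∧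
      ¬ (q : ℤ) ^ 2 ∣ (base d).eval c := by
  set f := base d with hf
  have hfm := base_monic hd
  set R : ℤ := f.resultant (derivative f) f.natDegree (derivative f).natDegree with hR
  have hR0 : R ≠ 0 := by
    intro h0
    have hinj : Function.Injective (Int.castRingHom ℚ) := Int.cast_injective
    have h2 : (f.map (Int.castRingHom ℚ)).resultant
        ((derivative f).map (Int.castRingHom ℚ)) = 0 := by
      rw [Polynomial.natDegree_map_eq_of_injective hinj,
        Polynomial.natDegree_map_eq_of_injective hinj, Polynomial.resultant_map_map, ← hR, h0,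
        map_zero]
    obtain ⟨-, h3⟩ := Polynomial.resultant_eq_zero_iff.1 h2
    refine h3 ?_
    rw [← Polynomial.derivative_map]
    exact ((Polynomial.IsPrimitive.Int.irreducible_iff_irreducible_map_cast hfm.isPrimitive).1
      (base_irreducible hd)).separable
  obtain ⟨a, b, -, -, hab⟩ := exists_mul_add_mul_eq_C_resultant f (derivative f)
    (m := f.natDegree) (n := (derivative f).natDegree) le_rfl le_rfl
    (Or.inl (by rw [base_natDegree]; omega))
  rw [← hR] at hab
  set L : ℕ := B + R.natAbs + 2 with hL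
  set a0 : ℤ := f.eval 0 with ha0
  have ha00 : a0 ≠ 0 := by
    intro h
    have h4 := four_dvd_base_eval_zero_sub hd
    rw [← hf, ← ha0, h] at h4
    norm_num at h4
  set M : ℤ := a0 * (L.factorial : ℤ) with hM
  have hM0 : M ≠ 0 := mul_ne_zero ha00 (by exact_mod_cast L.factorial_ne_zero)
  obtain ⟨k, hk⟩ : ∃ k : ℕ, f.eval (M * k) ≠ a0 ∧ f.eval (M * k) ≠ -a0 := by
    have hne : ∀ s : ℤ, (f - C s) ≠ 0 := fun s h => by
      have hd' := congrArg Polynomial.natDegree h
      rw [natDegree_sub_C, base_natDegree] at hd'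
      simp at hd'; omega
    have hinj : Function.Injective (fun k : ℕ => M * k) := fun a b h => by simpa [hM0] using h
    obtain ⟨k, hk⟩ := ((((f - C a0).roots.toFinset ∪ (f - C (-a0)).roots.toFinset :
      Finset ℤ).finite_toSet).preimage (f := fun k : ℕ => M * k) hinj.injOn).exists_notMem
    rw [Set.mem_preimage, Finset.mem_coe, Finset.mem_union, Multiset.mem_toFinset,
      Multiset.mem_toFinset, mem_roots', mem_roots'] at hk
    refine ⟨k, fun h => hk (Or.inl ⟨hne a0, by simp [h]⟩),
      fun h => hk (Or.inr ⟨hne (-a0), by simp [h]⟩)⟩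
  obtain ⟨w, hw⟩ : M * k ∣ f.eval (M * k) - a0 := by
    simpa using sub_dvd_eval_sub (M * k : ℤ) 0 f
  set W : ℤ := 1 + (L.factorial : ℤ) * k * w with hW
  have hval : f.eval (M * k) = a0 * W := by
    rw [hW]; rw [hM] at hw; rw [hM]; linear_combination hw
  have hW1 : W.natAbs ≠ 1 := by
    intro h
    rcases Int.natAbs_eq_iff.1 h with h' | h' <;> rw [hval, h'] at hk <;> norm_num at hk
  obtain ⟨q, hq, hqW⟩ := Nat.exists_prime_and_dvd hW1
  have hqW' : (q : ℤ) ∣ W := Int.natCast_dvd.2 hqW
  have hfdvd : (q : ℤ) ∣ f.eval (M * k) := hval ▸ hqW'.mul_left a0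
  have hqL : L < q := by
    by_contra hle
    push Not at hle
    have hqf : (q : ℤ) ∣ (L.factorial : ℤ) :=
      Int.natCast_dvd_natCast.2 (Nat.dvd_factorial hq.pos hle)
    have h1 : (q : ℤ) ∣ 1 := by
      have := dvd_sub hqW' ((hqf.mul_right (k : ℤ)).mul_right w)
      simpa [hW] using this
    have := Int.natCast_dvd_natCast.1 (show ((q : ℕ) : ℤ) ∣ ((1 : ℕ) : ℤ) by simpa using h1)
    exact hq.not_dvd_one this
  refine ⟨q, hq, by omega, by omega, ?_⟩
  set c : ℤ := M * k with hc
  by_cases hsq : (q : ℤ) ^ 2 ∣ f.eval c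
  · refine ⟨c + q, ?_, ?_⟩
    · have h' : (q : ℤ) ∣ f.eval (c + q) - f.eval c := by
        simpa using sub_dvd_eval_sub (c + q) c f
      simpa using dvd_add h' hfdvd
    · intro h2
      obtain ⟨t, ht⟩ := Polynomial.binomExpansion f c (q : ℤ)
      have h3 : (q : ℤ) ^ 2 ∣ (derivative f).eval c * q := by
        have h4 : (derivative f).eval c * q = f.eval (c + q) - f.eval c - t * (q : ℤ) ^ 2 := by
          rw [ht]; ring
        rw [h4]
        exact dvd_sub (dvd_sub h2 hsq) (dvd_mul_left _ _)
      have hq0 : (q : ℤ) ≠ 0 := by exact_mod_cast hq.ne_zero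
      have h5 : (q : ℤ) ∣ (derivative f).eval c := by
        rw [sq] at h3
        exact (mul_dvd_mul_iff_right hq0).1 h3
      have h6 : (q : ℤ) ∣ R := by
        have h7 := congrArg (Polynomial.eval c) hab
        simp only [eval_add, eval_mul, eval_C] at h7
        rw [← h7]
        exact dvd_add (hfdvd.mul_right _) (h5.mul_right _)
      have h8 := Nat.le_of_dvd (Int.natAbs_pos.2 hR0) (Int.natCast_dvd.1 h6)
      omega
  · exact ⟨c, hfdvd, hsq⟩

end Vale.Agent.P007
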